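import Vale.Agent.P141.PL.H198.Loc

/-!
# P141: one-gauge gain, the arbitrary function on a face which does not contain the gauge edge

On the boxes of the family the function of face `0` is `u (x1,x2) * sum_j p_j (x1,x3) q_j (x2,x3)`
(a captured piece, gauge edge `(x1,x2)`); the function of face `2` (which does not contain the edge
`(x1,x2)`) is arbitrary and enters only through its `L²` densities against the labels `p`; the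
function of face `1` gains through the norms of its pair products (`Cn`), the function of face `3`
through its `S₄` density in the gauge `u`.
-/

namespace Vale.Agent.P141.PL.H198

open Finset Matrix Vale.Agent.P075 Vale.Agent.P141.PL Vale.Agent.P141.PL.H48

set_option linter.unusedSectionVars false

noncomputable section

variable {J : Type} [Fintype J] [DecidableEq J]

/-- Gram matrices of the labels of the piece at `x3` -/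
def pQ (q : J → ℤ → ℤ → ℝ) (x3 y y' : ℤ) : ℝ := ∑ j, q j y x3 * q j y' x3

/-- `K k c y y'` bounds the square of the norm of the matrix `F (x0,y,x3) * F (x0,y',x3)`,
`x0`, `x3` in the cube (normalised) -/
def Cn (F : Pt → ℝ) (K : ℕ → Pt → ℤ → ℤ → ℝ) (k : ℕ) (c : Pt) : Prop :=
  ∀ y ∈ iv k c.2.1, ∀ y' ∈ iv k c.2.1, ∀ φ : ℤ → ℝ,
    ∑ x0 ∈ iv k c.1, (∑ x3 ∈ iv k c.2.2, F (x0, y, x3) * F (x0, y', x3) * φ x3) ^ 2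
      ≤ 4 ^ k * K k c y y' * ∑ x3 ∈ iv k c.2.2, φ x3 ^ 2

/-- weighted energy of the labels -/
def Pn (q : J → ℤ → ℤ → ℝ) (K : ℕ → Pt → ℤ → ℤ → ℝ) (k : ℕ) (c : Pt) : ℝ :=
  ∑ y ∈ iv k c.2.1, ∑ y' ∈ iv k c.2.1, K k c y y' * ∑ x3 ∈ iv k c.2.2, pQ q x3 y y' ^ 2

theorem cx_one (c : Pt) : cx 1 c = (c.1 / 2, c.2.1 / 2, c.2.2 / 2) := by
  unfold cx ix
  simp

/-- **the gain** -/
theorem D2_eA {N l : ℕ} {F1 : Pt → ℝ} {q : J → ℤ → ℤ → ℝ} {A1 : ℕ → Pt → Prop}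
    {K : ℕ → Pt → ℤ → ℤ → ℝ} {v : ℝ}
    (hK : ∀ k, l ≤ k → k < N → ∀ c, A1 (k + 1) (cx 1 c) → Cn F1 K k c)
    (hp : ∀ k, l ≤ k → k < N → ∀ c, A1 (k + 1) (cx 1 c) → Pn q K k c ≤ 8 ^ k * v) :
    D2 N l (eA F1 q) (mA A1) v := by
  have key : D2 N l (flF (eA F1 q)) (fl4 (mA A1)) v := by
    intro k h1 h2 i n m hU
    have hc : A1 (k + 1) (cx 1 (i, m, n)) := by
      rw [cx_one]; exact hU
    have e : ∀ g : Unit → ℝ, ∑ i, g i = g () := fun g => by simp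
    have a1 := hK k h1 h2 (i, m, n) hc
    have a2 := hp k h1 h2 (i, m, n) hc
    unfold flF fl
    simp only [e]
    have e2 : ∀ x z z' : ℤ, ∑ j' : J, ∑ y ∈ iv k n, eA F1 q x () j' z y * eA F1 q x () j' z' y
        = ∑ y ∈ iv k n, F1 (x, z, y) * F1 (x, z', y) * pQ q y z z' := by
      intro x z z'
      rw [sum_comm]
      refine sum_congr rfl fun y _ => ?_
      unfold pQ eA
      rw [mul_sum]
      exact sum_congr rfl fun j _ => by ring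
    simp only [e2]
    rw [sum_comm]
    have e3 : ∀ z ∈ iv k m, ∑ x ∈ iv k i, ∑ z' ∈ iv k m,
        (∑ y ∈ iv k n, F1 (x, z, y) * F1 (x, z', y) * pQ q y z z') ^ 2
        ≤ ∑ z' ∈ iv k m, 4 ^ k * K k (i, m, n) z z' * ∑ y ∈ iv k n, pQ q y z z' ^ 2 := by
      intro z hz
      rw [sum_comm]
      exact sum_le_sum fun z' hz' => a1 z hz z' hz' (fun y => pQ q y z z')
    refine (sum_le_sum e3).trans ?_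
    have e4 : ∑ z ∈ iv k m, ∑ z' ∈ iv k m, (4 : ℝ) ^ k * K k (i, m, n) z z'
        * ∑ y ∈ iv k n, pQ q y z z' ^ 2 = 4 ^ k * Pn q K k (i, m, n) := by
      unfold Pn
      simp only [mul_sum, mul_assoc]
    rw [e4]
    refine (mul_le_mul_of_nonneg_left a2 (by positivity)).trans (le_of_eq ?_)
    rw [← mul_assoc, ← mul_pow]; norm_num
  exact key.flip

/-- `L²` density of `F1` against the labels `q` (functions of the last two variables) -/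
def EA (F1 : Pt → ℝ) (q : J → ℤ → ℤ → ℝ) (k : ℕ) (c : Pt) : ℝ :=
  ∑ x0 ∈ iv k c.1, ∑ x2 ∈ iv k c.2.1, ∑ x3 ∈ iv k c.2.2, F1 (x0, x2, x3) ^ 2 * ∑ j, q j x2 x3 ^ 2

/-- section of `EA` -/
def HA (F1 : Pt → ℝ) (q : J → ℤ → ℤ → ℝ) (k : ℕ) (x0 : ℤ) (c : Pt) : ℝ :=
  ∑ x2 ∈ iv k c.2.1, ∑ x3 ∈ iv k c.2.2, F1 (x0, x2, x3) ^ 2 * ∑ j, q j x2 x3 ^ 2

/-- `S₄` density of `F3` in the gauge `u (x1, x2)` -/
def EC (F3 : Pt → ℝ) (u : ℤ → ℤ → ℝ) (k : ℕ) (c : Pt) : ℝ :=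
  ∑ x0 ∈ iv k c.1, ∑ x1 ∈ iv k c.2.1, ∑ x1' ∈ iv k c.2.1, (∑ x2 ∈ iv k c.2.2,
    F3 (x0, x1, x2) * u x1 x2 * (F3 (x0, x1', x2) * u x1' x2)) ^ 2

/-- `L²` density of the gauged function -/
def EG (F3 : Pt → ℝ) (u : ℤ → ℤ → ℝ) (k : ℕ) (c : Pt) : ℝ :=
  ∑ x0 ∈ iv k c.1, ∑ x1 ∈ iv k c.2.1, ∑ x2 ∈ iv k c.2.2, (F3 (x0, x1, x2) * u x1 x2) ^ 2

/-- section of `EG` -/
def HG (F3 : Pt → ℝ) (u : ℤ → ℤ → ℝ) (k : ℕ) (x0 : ℤ) (c : Pt) : ℝ :=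
  ∑ x1 ∈ iv k c.2.1, ∑ x2 ∈ iv k c.2.2, (F3 (x0, x1, x2) * u x1 x2) ^ 2

theorem uu (g : Unit → ℝ) : ∑ i, g i = g () := by simp

theorem D1_eA {N l : ℕ} {F1 : Pt → ℝ} {q : J → ℤ → ℤ → ℝ} {A1 : ℕ → Pt → Prop} {α : ℝ}
    (h : ∀ k, l ≤ k → k < N → ∀ c, A1 (k + 1) (cx 1 c) → EA F1 q k c ≤ 8 ^ k * α) :
    D1 N l (eA F1 q) (mA A1) α := by
  intro k h1 h2 i n m hU
  have hc : A1 (k + 1) (cx 1 (i, n, m)) := by rw [cx_one]; exact hU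
  refine le_trans (le_of_eq ?_) (h k h1 h2 (i, n, m) hc)
  unfold EA
  refine sum_congr rfl fun x0 _ => ?_
  rw [uu, sum_comm]
  refine sum_congr rfl fun x2 _ => ?_
  rw [sum_comm]
  refine sum_congr rfl fun x3 _ => ?_
  rw [mul_sum]
  exact sum_congr rfl fun j _ => mul_pow _ _ _

theorem D1_eB {N l : ℕ} {F2 : Pt → ℝ} {p : J → ℤ → ℤ → ℝ} {A2 : ℕ → Pt → Prop} {α : ℝ}
    (h : ∀ k, l ≤ k → k < N → ∀ c, A2 (k + 1) (cx 1 c) → EA F2 p k c ≤ 8 ^ k * α) :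
    D1 N l (eB F2 p) (mB A2) α := by
  intro k h1 h2 i n m hU
  have hc : A2 (k + 1) (cx 1 (i, m, n)) := by rw [cx_one]; exact hU
  refine le_trans (le_of_eq ?_) (h k h1 h2 (i, m, n) hc)
  unfold EA
  refine sum_congr rfl fun x0 _ => ?_
  simp only [uu]
  rw [sum_comm]
  have e : ∀ x3 : ℤ, ∑ j, ∑ x1 ∈ iv k m, eB F2 p x0 j () x3 x1 ^ 2
      = ∑ x1 ∈ iv k m, F2 (x0, x1, x3) ^ 2 * ∑ j, p j x1 x3 ^ 2 := by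
    intro x3
    rw [sum_comm]
    refine sum_congr rfl fun x1 _ => ?_
    rw [mul_sum]
    exact sum_congr rfl fun j _ => mul_pow _ _ _
  simp only [e]
  exact sum_comm

theorem D1_eC {N l : ℕ} {F3 : Pt → ℝ} {u : ℤ → ℤ → ℝ} {A3 : ℕ → Pt → Prop} {α : ℝ}
    (h : ∀ k, l ≤ k → k < N → ∀ c, A3 (k + 1) (cx 1 c) → EG F3 u k c ≤ 8 ^ k * α) :
    D1 N l (eC F3 u) (mB A3) α := by
  intro k h1 h2 i n m hU
  have hc : A3 (k + 1) (cx 1 (i, m, n)) := by rw [cx_one]; exact hU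
  refine le_trans (le_of_eq ?_) (h k h1 h2 (i, m, n) hc)
  unfold EG
  refine sum_congr rfl fun x0 _ => ?_
  simp only [uu]
  exact sum_comm

theorem D2_eC {N l : ℕ} {F3 : Pt → ℝ} {u : ℤ → ℤ → ℝ} {A3 : ℕ → Pt → Prop} {v : ℝ}
    (h : ∀ k, l ≤ k → k < N → ∀ c, A3 (k + 1) (cx 1 c) → EC F3 u k c ≤ 32 ^ k * v) :
    D2 N l (eC F3 u) (mB A3) v := by
  intro k h1 h2 i n m hU
  have hc : A3 (k + 1) (cx 1 (i, m, n)) := by rw [cx_one]; exact hU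
  refine le_trans (le_of_eq ?_) (h k h1 h2 (i, m, n) hc)
  unfold EC
  refine sum_congr rfl fun x0 _ => ?_
  simp only [uu]
  rfl

/-! ### heights -/

theorem ob_eA {k : ℕ} {F1 : Pt → ℝ} {q : J → ℤ → ℤ → ℝ} {M : ℝ} (x0 : ℤ) (c : Pt)
    (h : HA F1 q k x0 c ≤ 4 ^ k * M) : OB M (mat k (eA F1 q x0) c.2.1 c.2.2) := by
  refine ob_of_hs ?_
  rw [hs_mat, inv_mul_le_iff₀ (by positivity)]
  refine le_trans (le_of_eq ?_) h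
  unfold HA
  rw [uu, sum_comm]
  refine sum_congr rfl fun x2 _ => ?_
  rw [sum_comm]
  refine sum_congr rfl fun x3 _ => ?_
  rw [mul_sum]
  exact sum_congr rfl fun j _ => mul_pow _ _ _

theorem ob_eB {k : ℕ} {F2 : Pt → ℝ} {p : J → ℤ → ℤ → ℝ} {M : ℝ} (x0 : ℤ) (c : Pt)
    (h : HA F2 p k x0 c ≤ 4 ^ k * M) : OB M (mat k (eB F2 p x0) c.2.2 c.2.1) := by
  refine ob_of_hs ?_
  rw [hs_mat, inv_mul_le_iff₀ (by positivity)]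
  refine le_trans (le_of_eq ?_) h
  unfold HA
  simp only [uu]
  rw [sum_comm]
  have e : ∀ x3 : ℤ, ∑ j, ∑ x1 ∈ iv k c.2.1, eB F2 p x0 j () x3 x1 ^ 2
      = ∑ x1 ∈ iv k c.2.1, F2 (x0, x1, x3) ^ 2 * ∑ j, p j x1 x3 ^ 2 := by
    intro x3
    rw [sum_comm]
    refine sum_congr rfl fun x1 _ => ?_
    rw [mul_sum]
    exact sum_congr rfl fun j _ => mul_pow _ _ _
  simp only [e]
  exact sum_comm

theorem ob_eC {k : ℕ} {F3 : Pt → ℝ} {u : ℤ → ℤ → ℝ} {M : ℝ} (x0 : ℤ) (c : Pt)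
    (h : HG F3 u k x0 c ≤ 4 ^ k * M) : OB M (mat k (eC F3 u x0) c.2.2 c.2.1) := by
  refine ob_of_hs ?_
  rw [hs_mat, inv_mul_le_iff₀ (by positivity)]
  refine le_trans (le_of_eq ?_) h
  unfold HG
  simp only [uu]
  exact sum_comm

open scoped Classical in
/-- **One-gauge gain with an arbitrary function on a face that does not contain the gauge edge.** -/
theorem e1_main {N l : ℕ} (hl : l ≤ N) (R : Bx) {o : ℤ} (o1 : -1 ≤ o) (o2 : o ≤ 1)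
    {A1 A2 A3 : ℕ → Pt → Prop} (c1 : ClP N A1) (c2 : ClP N A2) (c3 : ClP N A3)
    {P : ℕ → Bx → Prop} (hP : ∀ k m, P k m → A1 k (rf1 m) ∧ A2 k (rf2 m) ∧ A3 k (rf3 m))
    (G0 G1 G2 G3 : ℕ → Bx → Pt → ℝ) (F1 F2 F3 : Pt → ℝ) (u : ℤ → ℤ → ℝ)
    (p q : J → ℤ → ℤ → ℝ)
    (h0 : ∀ k m, P k m → ∀ x1 ∈ iv k m.2.1, ∀ x2 ∈ iv k m.2.2.1, ∀ x3 ∈ iv k m.2.2.2,
      G0 k m (x1, x2, x3) = u x1 x2 * ∑ j, p j x1 x3 * q j x2 x3)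
    (h1 : ∀ k m, P k m → ∀ c ∈ cb k (rf1 m), G1 k m c = F1 c)
    (h2 : ∀ k m, P k m → ∀ c ∈ cb k (rf2 m), G2 k m c = F2 c)
    (h3 : ∀ k m, P k m → ∀ c ∈ cb k (rf3 m), G3 k m c = F3 c)
    {K : ℕ → Pt → ℤ → ℤ → ℝ} {Ma Mb Mc : ℝ} (ha : 0 < Ma) (hb : 0 < Mb) (hcc : 0 < Mc)
    (oA : ∀ k c x0, A1 k c → x0 ∈ iv k c.1 → HA F1 q k x0 c ≤ 4 ^ k * Ma ^ 2)
    (oB : ∀ k c x0, A2 k c → x0 ∈ iv k c.1 → HA F2 p k x0 c ≤ 4 ^ k * Mb ^ 2)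
    (oC : ∀ k c x0, A3 k c → x0 ∈ iv k c.1 → HG F3 u k x0 c ≤ 4 ^ k * Mc ^ 2)
    {v w s α γ : ℝ} (hv : 0 < v) (hw : 0 < w) (hs : 0 < s) (hα : 0 ≤ α) (hγ : 0 ≤ γ)
    (a1 : ∀ k, l ≤ k → k < N → ∀ c, A1 (k + 1) (cx 1 c) → EA F1 q k c ≤ 8 ^ k * α)
    (a2 : ∀ k, l ≤ k → k < N → ∀ c, A1 (k + 1) (cx 1 c) → Cn F1 K k c)
    (a3 : ∀ k, l ≤ k → k < N → ∀ c, A1 (k + 1) (cx 1 c) → Pn q K k c ≤ 8 ^ k * v ^ 2)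
    (b1 : ∀ k, l ≤ k → k < N → ∀ c, A2 (k + 1) (cx 1 c) → EA F2 p k c ≤ 8 ^ k * s ^ 2)
    (d1 : ∀ k, l ≤ k → k < N → ∀ c, A3 (k + 1) (cx 1 c) → EG F3 u k c ≤ 8 ^ k * γ)
    (d2 : ∀ k, l ≤ k → k < N → ∀ c, A3 (k + 1) (cx 1 c) → EC F3 u k c ≤ 32 ^ k * w ^ 2)
    (L : ℕ) (q1 : v * Mb ≤ 2 ^ L * (s * Ma ^ 2)) (q2 : w * Mb ≤ 2 ^ L * (s * Mc ^ 2))
    (q3 : s * Ma ^ 2 ≤ 2 ^ L * (v * Mb)) (q4 : s * Mc ^ 2 ≤ 2 ^ L * (w * Mb))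
    (q5 : α * Mb ≤ 2 ^ L * (v * s)) (q6 : γ * Mb ≤ 2 ^ L * (w * s)) :
    ∑ k ∈ Icc (l + 1) N, ((2 : ℝ) ^ k)⁻¹ * ∑ m ∈ bxs N R o k,
        (if P k m then |loc k m (G0 k m) (G1 k m) (G2 k m) (G3 k m)| else 0)
      ≤ 270179280 * (L + 1) * Real.sqrt (s ^ 2 * v * w) * 8 ^ N := by
  refine (locSum_le R o hP G0 G1 G2 G3 F1 F2 F3 u p q h0 h1 h2 h3).trans ?_
  refine triF hl c1.mA c2.mB c3.mB (pl_fix o o1 o2) (eA F1 q) (eB F2 p) (eC F3 u) ha hb hcc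
    ?_ ?_ ?_ hv hw hs hα hγ (D1_eA a1) (D2_eA a2 a3) (D1_eB b1) (D1_eC d1) (D2_eC d2) L
    q1 q2 q3 q4 q5 q6
  · intro x _ k _ r _ hm
    exact ob_eA x (ix k x, r.1, r.2.1) (oA k _ x hm.1 (self_mem_iv k x))
  · intro x _ k _ r _ hm
    exact ob_eB x (ix k x, r.2.2, r.2.1) (oB k _ x hm.2.1 (self_mem_iv k x))
  · intro x _ k _ r _ hm
    exact ob_eC x (ix k x, r.2.2, r.1) (oC k _ x hm.2.2 (self_mem_iv k x))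

theorem rng {M : ℕ} {t₁ t₂ t₃ t₄ t₅ : ℝ}
    (h₁ : t₁ ≤ 2 ^ M) (h₂ : t₂ ≤ 2 ^ M) (h₂' : 0 ≤ t₂) (h₃ : ((2 : ℝ) ^ M)⁻¹ ≤ t₃)
    (h₄ : ((2 : ℝ) ^ M)⁻¹ ≤ t₄) (h₅ : ((2 : ℝ) ^ M)⁻¹ ≤ t₅) :
    t₁ * t₂ ≤ 2 ^ (5 * M) * (t₃ * (t₄ * t₅)) := by
  have hp : (0 : ℝ) < ((2 : ℝ) ^ M)⁻¹ := by positivity
  have e1 : t₁ * t₂ ≤ 2 ^ M * 2 ^ M := mul_le_mul h₁ h₂ h₂' (by positivity)
  have e2 : ((2 : ℝ) ^ M)⁻¹ * (((2 : ℝ) ^ M)⁻¹ * ((2 : ℝ) ^ M)⁻¹) ≤ t₃ * (t₄ * t₅) :=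
    mul_le_mul h₃ (mul_le_mul h₄ h₅ hp.le (hp.le.trans h₄)) (by positivity) (hp.le.trans h₃)
  refine e1.trans ((le_of_eq ?_).trans (mul_le_mul_of_nonneg_left e2 (by positivity)))
  rw [show (2 : ℝ) ^ (5 * M) = 2 ^ M * 2 ^ M * 2 ^ M * 2 ^ M * 2 ^ M by
    rw [← pow_add, ← pow_add, ← pow_add, ← pow_add]; congr 1; ring]
  field_simp

theorem rng' {M : ℕ} {t₁ t₂ t₃ t₄ t₅ : ℝ} (h₁ : t₁ ≤ 2 ^ M) (h₁' : 0 ≤ t₁) (h₂ : t₂ ≤ 2 ^ M)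
    (h₂' : 0 ≤ t₂) (h₃ : t₃ ≤ 2 ^ M) (h₃' : 0 ≤ t₃)
    (h₄ : ((2 : ℝ) ^ M)⁻¹ ≤ t₄) (h₅ : ((2 : ℝ) ^ M)⁻¹ ≤ t₅) :
    t₁ * (t₂ * t₃) ≤ 2 ^ (5 * M) * (t₄ * t₅) := by
  have hp : (0 : ℝ) < ((2 : ℝ) ^ M)⁻¹ := by positivity
  have e1 : t₁ * (t₂ * t₃) ≤ 2 ^ M * (2 ^ M * 2 ^ M) :=
    mul_le_mul h₁ (mul_le_mul h₂ h₃ h₃' (by positivity)) (by positivity) (by positivity)
  have e2 : ((2 : ℝ) ^ M)⁻¹ * ((2 : ℝ) ^ M)⁻¹ ≤ t₄ * t₅ :=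
    mul_le_mul h₄ h₅ hp.le (hp.le.trans h₄)
  refine e1.trans ((le_of_eq ?_).trans (mul_le_mul_of_nonneg_left e2 (by positivity)))
  rw [show (2 : ℝ) ^ (5 * M) = 2 ^ M * 2 ^ M * 2 ^ M * 2 ^ M * 2 ^ M by
    rw [← pow_add, ← pow_add, ← pow_add, ← pow_add]; congr 1; ring]
  field_simp

theorem rng'' {M : ℕ} {t₁ t₂ t₄ t₅ : ℝ} (h₁ : t₁ ≤ 2 ^ M) (h₂ : t₂ ≤ 2 ^ M) (h₂' : 0 ≤ t₂)
    (h₄ : ((2 : ℝ) ^ M)⁻¹ ≤ t₄) (h₅ : ((2 : ℝ) ^ M)⁻¹ ≤ t₅) :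
    t₁ * t₂ ≤ 2 ^ (5 * M) * (t₄ * t₅) := by
  have hp : (0 : ℝ) < ((2 : ℝ) ^ M)⁻¹ := by positivity
  have e1 : t₁ * t₂ ≤ 2 ^ M * 2 ^ M := mul_le_mul h₁ h₂ h₂' (by positivity)
  have e2 : ((2 : ℝ) ^ M)⁻¹ * ((2 : ℝ) ^ M)⁻¹ ≤ t₄ * t₅ :=
    mul_le_mul h₄ h₅ hp.le (hp.le.trans h₄)
  have e3 : (2 : ℝ) ^ (4 * M) ≤ 2 ^ (5 * M) := pow_le_pow_right₀ (by norm_num) (by omega)
  have e4 : 0 ≤ t₄ * t₅ := le_trans (by positivity) e2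
  refine (e1.trans ?_).trans (mul_le_mul_of_nonneg_right e3 e4)
  refine (le_of_eq ?_).trans (mul_le_mul_of_nonneg_left e2 (by positivity))
  rw [show (2 : ℝ) ^ (4 * M) = 2 ^ M * 2 ^ M * 2 ^ M * 2 ^ M by
    rw [← pow_add, ← pow_add, ← pow_add]; congr 1; ring]
  field_simp

open scoped Classical in
/-- **One-gauge gain, bounded data.**  `|F1|, |F3|, |u| ≤ 1`, the labels satisfy
`sum_j p_j² ≤ Λ`, `sum_j q_j² ≤ Λ`, the arbitrary function `F2` has height `≤ H` and `L²` average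
`≤ φ²` on every cube with an alive parent, the pair products of `F1` have norm `≤ κ`, the `S₄`
density of the Gram matrices of the labels is `≤ g²`, the `S₄` density of `u F3` is `≤ w²`:
the sum is `≤ C (M + 1) Λ^{1/2} φ (κ g w)^{1/2}`, `2 ^ (± M)` bounds all the numbers. -/
theorem e1_gain {N l : ℕ} (hl : l ≤ N) (R : Bx) {o : ℤ} (o1 : -1 ≤ o) (o2 : o ≤ 1)
    {A1 A2 A3 : ℕ → Pt → Prop} (c1 : ClP N A1) (c2 : ClP N A2) (c3 : ClP N A3)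
    {P : ℕ → Bx → Prop} (hP : ∀ k m, P k m → A1 k (rf1 m) ∧ A2 k (rf2 m) ∧ A3 k (rf3 m))
    (G0 G1 G2 G3 : ℕ → Bx → Pt → ℝ) (F1 F2 F3 : Pt → ℝ) (u : ℤ → ℤ → ℝ)
    (p q : J → ℤ → ℤ → ℝ)
    (h0 : ∀ k m, P k m → ∀ x1 ∈ iv k m.2.1, ∀ x2 ∈ iv k m.2.2.1, ∀ x3 ∈ iv k m.2.2.2,
      G0 k m (x1, x2, x3) = u x1 x2 * ∑ j, p j x1 x3 * q j x2 x3)
    (h1 : ∀ k m, P k m → ∀ c ∈ cb k (rf1 m), G1 k m c = F1 c)
    (h2 : ∀ k m, P k m → ∀ c ∈ cb k (rf2 m), G2 k m c = F2 c)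
    (h3 : ∀ k m, P k m → ∀ c ∈ cb k (rf3 m), G3 k m c = F3 c)
    (f1 : ∀ c, |F1 c| ≤ 1) (f3 : ∀ x0 x1 x2, |F3 (x0, x1, x2) * u x1 x2| ≤ 1)
    {Λ H φ κ g w : ℝ} (f2 : ∀ c, |F2 c| ≤ H)
    (fp : ∀ x1 x3, ∑ j, p j x1 x3 ^ 2 ≤ Λ) (fq : ∀ x2 x3, ∑ j, q j x2 x3 ^ 2 ≤ Λ)
    (b1 : ∀ k, l ≤ k → k < N → ∀ c, A2 (k + 1) (cx 1 c) → ∑ x ∈ cb k c, F2 x ^ 2 ≤ 8 ^ k * φ ^ 2)
    (a2 : ∀ k, l ≤ k → k < N → ∀ c, A1 (k + 1) (cx 1 c) → Cn F1 (fun _ _ _ _ => κ ^ 2) k c)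
    (a3 : ∀ k, l ≤ k → k < N → ∀ c, A1 (k + 1) (cx 1 c) → Pn q (fun _ _ _ _ => 1) k c
      ≤ 8 ^ k * g ^ 2)
    (d2 : ∀ k, l ≤ k → k < N → ∀ c, A3 (k + 1) (cx 1 c) → EC F3 u k c ≤ 32 ^ k * w ^ 2)
    (M : ℕ) (hΛ : ((2 : ℝ) ^ M)⁻¹ ≤ Real.sqrt Λ) (hΛ' : Λ ≤ 2 ^ M) (hΛ1 : Real.sqrt Λ ≤ 2 ^ M)
    (hH : ((2 : ℝ) ^ M)⁻¹ ≤ Real.sqrt Λ * H) (hH' : Real.sqrt Λ * H ≤ 2 ^ M)
    (hφ : ((2 : ℝ) ^ M)⁻¹ ≤ Real.sqrt Λ * φ) (hφ' : Real.sqrt Λ * φ ≤ 2 ^ M)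
    (hκ : ((2 : ℝ) ^ M)⁻¹ ≤ κ * g) (hκ' : κ * g ≤ 2 ^ M)
    (hw : ((2 : ℝ) ^ M)⁻¹ ≤ w) (hw' : w ≤ 2 ^ M) :
    ∑ k ∈ Icc (l + 1) N, ((2 : ℝ) ^ k)⁻¹ * ∑ m ∈ bxs N R o k,
        (if P k m then |loc k m (G0 k m) (G1 k m) (G2 k m) (G3 k m)| else 0)
      ≤ 270179280 * (5 * M + 1) * Real.sqrt (Λ * φ ^ 2 * (κ * g) * w) * 8 ^ N := by
  have hp : (0 : ℝ) < ((2 : ℝ) ^ M)⁻¹ := by positivity
  have hΛ0 : 0 < Real.sqrt Λ := lt_of_lt_of_le hp hΛ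
  have hΛ2 : 0 < Λ := Real.sqrt_pos.mp hΛ0
  have sqΛ : Real.sqrt Λ ^ 2 = Λ := Real.sq_sqrt hΛ2.le
  have hM1 : (1 : ℝ) ≤ 2 ^ M := one_le_pow₀ (by norm_num)
  have hM2 : ((2 : ℝ) ^ M)⁻¹ ≤ 1 := inv_le_one_of_one_le₀ hM1
  have F1s : ∀ c, F1 c ^ 2 ≤ 1 := fun c => by
    rw [← sq_abs]; exact pow_le_one₀ (abs_nonneg _) (f1 c)
  have F3s : ∀ x0 x1 x2, (F3 (x0, x1, x2) * u x1 x2) ^ 2 ≤ 1 := fun x0 x1 x2 => by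
    rw [← sq_abs]; exact pow_le_one₀ (abs_nonneg _) (f3 x0 x1 x2)
  have F2s : ∀ c, F2 c ^ 2 ≤ H ^ 2 := fun c => by
    rw [← sq_abs (F2 c)]; exact pow_le_pow_left₀ (abs_nonneg _) (f2 c) 2
  have hq0 : ∀ x2 x3, 0 ≤ ∑ j, q j x2 x3 ^ 2 := fun _ _ => sum_nonneg fun _ _ => sq_nonneg _
  have hp0 : ∀ x2 x3, 0 ≤ ∑ j, p j x2 x3 ^ 2 := fun _ _ => sum_nonneg fun _ _ => sq_nonneg _
  have cc : ∀ (k : ℕ) (m : ℤ) (t : ℝ), ∑ _x ∈ iv k m, t = 2 ^ k * t := by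
    intro k m t
    rw [sum_const, card_iv, nsmul_eq_mul]
    push_cast
    rfl
  have key := e1_main (K := fun _ _ _ _ => κ ^ 2) (Ma := Real.sqrt Λ) (Mb := Real.sqrt Λ * H)
    (Mc := 1) (v := κ * g) (w := w) (s := Real.sqrt Λ * φ) (α := Λ) (γ := 1)
    hl R o1 o2 c1 c2 c3 hP G0 G1 G2 G3 F1 F2 F3 u p q h0 h1 h2 h3
    hΛ0 (lt_of_lt_of_le hp hH) one_pos ?_ ?_ ?_ (lt_of_lt_of_le hp hκ) (lt_of_lt_of_le hp hw)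
    (lt_of_lt_of_le hp hφ) hΛ2.le zero_le_one ?_ a2 ?_ ?_ ?_ d2 (5 * M) ?_ ?_ ?_ ?_ ?_ ?_
  · refine key.trans (le_of_eq ?_)
    rw [mul_pow, sqΛ]
    push_cast
    ring
  · intro k c x0 _ _
    unfold HA
    rw [sqΛ]
    refine (sum_le_sum fun x2 _ => sum_le_sum fun x3 _ =>
      mul_le_mul (F1s _) (fq x2 x3) (hq0 _ _) zero_le_one).trans (le_of_eq ?_)
    rw [cc, cc, one_mul, ← mul_assoc, ← mul_pow]; norm_num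
  · intro k c x0 _ _
    unfold HA
    rw [mul_pow, sqΛ]
    refine (sum_le_sum fun x2 _ => sum_le_sum fun x3 _ =>
      mul_le_mul (F2s _) (fp x2 x3) (hp0 _ _) (sq_nonneg H)).trans (le_of_eq ?_)
    rw [cc, cc, ← mul_assoc, ← mul_pow]; norm_num
    ring
  · intro k c x0 _ _
    unfold HG
    refine (sum_le_sum fun x1 _ => sum_le_sum fun x2 _ => F3s x0 x1 x2).trans (le_of_eq ?_)
    rw [cc, cc, ← mul_assoc, ← mul_pow]; norm_num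
  · intro k _ _ c _
    unfold EA
    refine (sum_le_sum fun x0 _ => sum_le_sum fun x2 _ => sum_le_sum fun x3 _ =>
      mul_le_mul (F1s _) (fq x2 x3) (hq0 _ _) zero_le_one).trans (le_of_eq ?_)
    rw [cc, cc, cc, one_mul, ← mul_assoc, ← mul_assoc, ← mul_pow, ← mul_pow]; norm_num
  · intro k h1 h2 c hc
    have := mul_le_mul_of_nonneg_left (a3 k h1 h2 c hc) (sq_nonneg κ)
    refine le_trans (le_of_eq ?_) (this.trans (le_of_eq (by ring)))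
    unfold Pn
    simp only [mul_sum, one_mul]
  · intro k h1 h2 c hc
    have h3 := mul_le_mul_of_nonneg_left (b1 k h1 h2 c hc) hΛ2.le
    rw [mul_pow, sqΛ]
    refine le_trans ?_ (h3.trans (le_of_eq (by ring)))
    unfold EA cb
    rw [sum_product, mul_sum]
    refine sum_le_sum fun x0 _ => ?_
    rw [sum_product, mul_sum]
    refine sum_le_sum fun x1 _ => ?_
    rw [mul_sum]
    refine sum_le_sum fun x3 _ => ?_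
    rw [mul_comm Λ]
    exact mul_le_mul_of_nonneg_left (fp x1 x3) (sq_nonneg _)
  · intro k _ _ c _
    unfold EG
    refine (sum_le_sum fun x0 _ => sum_le_sum fun x1 _ => sum_le_sum fun x2 _ =>
      F3s x0 x1 x2).trans (le_of_eq ?_)
    rw [cc, cc, cc, ← mul_assoc, ← mul_assoc, ← mul_pow, ← mul_pow]; norm_num
  · rw [pow_two]
    exact rng hκ' hH' (hp.le.trans hH) hφ hΛ hΛ
  · rw [one_pow, mul_one]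
    have := rng hw' hH' (hp.le.trans hH) hφ hM2 hM2
    rwa [mul_one, mul_one] at this
  · rw [pow_two]
    exact rng' hφ' (hp.le.trans hφ) hΛ1 hΛ0.le hΛ1 hΛ0.le hκ hH
  · rw [one_pow]
    have := rng' hφ' (hp.le.trans hφ) hM1 zero_le_one hM1 zero_le_one hw hH
    rwa [mul_one (1 : ℝ)] at this
  · exact rng'' hΛ' hH' (hp.le.trans hH) hκ hφ
  · exact rng'' hM1 hH' (hp.le.trans hH) hw hφ

end

end Vale.Agent.P141.PL.H198
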