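import Vale.Agent.P141.PL.H48.TriM
import Vale.Agent.P141.PL.H48.GFun

/-!
# P141: the masked labelled triangle (4, 2, 4) for face functions

`tri424M` of `H48/TriM` with explicit sums over face cubes instead of Gram families, and
homogeneous in the heights of the three functions.
-/

namespace Vale.Agent.P141.PL.H198

open Finset Matrix Vale.Agent.P075 Vale.Agent.P141.PL Vale.Agent.P141.PL.H48

set_option linter.unusedSectionVars false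

noncomputable section

variable {J0 J1 J2 : Type} [Fintype J0] [DecidableEq J0] [Fintype J1] [DecidableEq J1]
  [Fintype J2] [DecidableEq J2] {J' J : Type} [Fintype J'] [DecidableEq J'] [Fintype J]
  [DecidableEq J]

/-- `S₂` density of a labelled function `F x j' j y z` (fixed variable, outer label, middle label,
outer variable, middle variable): every cube whose parent is alive has `L²` average `≤ α`. -/
def D1 (N l : ℕ) (F : ℤ → J' → J → ℤ → ℤ → ℝ) (U : MC) (α : ℝ) : Prop :=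
  ∀ k, l ≤ k → k < N → ∀ i n m, U (k + 1) (i / 2) (n / 2) (m / 2) →
    ∑ x ∈ iv k i, ∑ j' : J', ∑ j : J, ∑ y ∈ iv k n, ∑ z ∈ iv k m, F x j' j y z ^ 2 ≤ 8 ^ k * α

/-- `S₄` density: Gram matrix in the middle variable. -/
def D2 (N l : ℕ) (F : ℤ → J' → J → ℤ → ℤ → ℝ) (U : MC) (v : ℝ) : Prop :=
  ∀ k, l ≤ k → k < N → ∀ i n m, U (k + 1) (i / 2) (n / 2) (m / 2) →
    ∑ x ∈ iv k i, ∑ j₁ : J, ∑ z ∈ iv k m, ∑ j₂ : J, ∑ z' ∈ iv k m,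
      (∑ j' : J', ∑ y ∈ iv k n, F x j' j₁ y z * F x j' j₂ y z') ^ 2 ≤ 32 ^ k * v

/-- flip of a family -/
def flF (F : ℤ → J' → J → ℤ → ℤ → ℝ) : ℤ → J → J' → ℤ → ℤ → ℝ := fun x => fl (F x)

theorem trace_gX (k : ℕ) (F : J' → J → ℤ → ℤ → ℝ) (n m : ℤ) :
    (gX k k F n m).trace = ((4 : ℝ) ^ k)⁻¹ * ∑ j' : J', ∑ j : J, ∑ x ∈ iv k n, ∑ y ∈ iv k m,
      F j' j x y ^ 2 := by
  rw [← hs_mat, ← mat_col, H48.hs, trace_mul_comm]

theorem gX_iv (k : ℕ) (F : J' → J → ℤ → ℤ → ℝ) (n m : ℤ) (j j' : IL J k) :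
    gX k k F n m j j' = ((4 : ℝ) ^ k)⁻¹ * ∑ i : J', ∑ y ∈ iv k n,
      F i (lb k j) y (2 ^ k * m + vl k j) * F i (lb k j') y (2 ^ k * m + vl k j') := by
  rw [gX_apply, sum_IL_iv k n (fun i y => F i (lb k j) y (2 ^ k * m + vl k j)
    * F i (lb k j') y (2 ^ k * m + vl k j'))]
  congr 2
  rw [← mul_pow]; norm_num

theorem trace_gX_sq (k : ℕ) (F : J' → J → ℤ → ℤ → ℝ) (n m : ℤ) :
    (gX k k F n m * gX k k F n m).trace = ((16 : ℝ) ^ k)⁻¹ * ∑ j₁ : J, ∑ z ∈ iv k m, ∑ j₂ : J,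
      ∑ z' ∈ iv k m, (∑ j' : J', ∑ y ∈ iv k n, F j' j₁ y z * F j' j₂ y z') ^ 2 := by
  have hsym : ∀ a b, gX k k F n m a b = gX k k F n m b a := by
    intro a b
    rw [gX_iv, gX_iv]
    congr 1
    exact sum_congr rfl fun i _ => sum_congr rfl fun y _ => mul_comm _ _
  have e16 : (((4 : ℝ) ^ k)⁻¹) ^ 2 = ((16 : ℝ) ^ k)⁻¹ := by
    rw [inv_pow, ← pow_mul, mul_comm k 2, pow_mul]; norm_num
  have h1 : (gX k k F n m * gX k k F n m).trace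
      = ∑ a : IL J k, ∑ b : IL J k, (gX k k F n m a b) ^ 2 := by
    simp only [Matrix.trace, Matrix.diag_apply, Matrix.mul_apply]
    refine sum_congr rfl fun a _ => sum_congr rfl fun b _ => ?_
    rw [hsym b a, pow_two]
  rw [h1]
  simp only [gX_iv, mul_pow, e16, ← mul_sum]
  congr 1
  have h2 : ∀ a : IL J k, ∑ b : IL J k, (∑ i : J', ∑ y ∈ iv k n,
      F i (lb k a) y (2 ^ k * m + vl k a) * F i (lb k b) y (2 ^ k * m + vl k b)) ^ 2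
      = ∑ j₂ : J, ∑ z' ∈ iv k m, (∑ i : J', ∑ y ∈ iv k n,
      F i (lb k a) y (2 ^ k * m + vl k a) * F i j₂ y z') ^ 2 := fun a =>
    sum_IL_iv k m (fun j₂ z' => (∑ i : J', ∑ y ∈ iv k n,
      F i (lb k a) y (2 ^ k * m + vl k a) * F i j₂ y z') ^ 2)
  simp only [h2]
  exact sum_IL_iv k m (fun j₁ z => ∑ j₂ : J, ∑ z' ∈ iv k m, (∑ i : J', ∑ y ∈ iv k n,
      F i j₁ y z * F i j₂ y z') ^ 2)

theorem ix_half {k : ℕ} {i x : ℤ} (hx : x ∈ iv k i) : ix (k + 1) x = i / 2 := by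
  rw [ix_succ, mem_iv.mp hx]

theorem H1_of_D1 {N l : ℕ} {F : ℤ → J' → J → ℤ → ℤ → ℝ} {U : MC} {α : ℝ} (hα : 0 ≤ α)
    (h : D1 N l F U α) : H1 N l (fun x => ofFun (F x)) U α := by
  classical
  intro k h1 h2 i n m
  by_cases hU : U (k + 1) (i / 2) (n / 2) (m / 2)
  · have e : ∀ x ∈ iv k i, (mP (ofFun (F x)) (sl U x) k m n).trace
        = ((4 : ℝ) ^ k)⁻¹ * ∑ j' : J', ∑ j : J, ∑ y ∈ iv k n, ∑ z ∈ iv k m, F x j' j y z ^ 2 := by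
      intro x hx
      unfold mP
      rw [if_pos (show sl U x (k + 1) (n / 2) (m / 2) by unfold sl; rwa [ix_half hx])]
      exact trace_gX k (F x) n m
    rw [sum_congr rfl e, ← mul_sum, inv_mul_le_iff₀ (by positivity)]
    refine (h k h1 h2 i n m hU).trans (le_of_eq ?_)
    rw [← mul_assoc, ← mul_pow]; norm_num
  · have e : ∀ x ∈ iv k i, (mP (ofFun (F x)) (sl U x) k m n).trace = 0 := by
      intro x hx
      unfold mP
      rw [if_neg (show ¬ sl U x (k + 1) (n / 2) (m / 2) by unfold sl; rwa [ix_half hx])]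
      exact Matrix.trace_zero _ _
    rw [sum_congr rfl e, sum_const_zero]
    positivity

theorem H2_of_D2 {N l : ℕ} {F : ℤ → J' → J → ℤ → ℤ → ℝ} {U : MC} {v : ℝ} (hv : 0 ≤ v)
    (h : D2 N l F U v) : H2 N l (fun x => ofFun (F x)) U v := by
  classical
  intro k h1 h2 i n m
  by_cases hU : U (k + 1) (i / 2) (n / 2) (m / 2)
  · have e : ∀ x ∈ iv k i, (mP (ofFun (F x)) (sl U x) k m n
          * mP (ofFun (F x)) (sl U x) k m n).trace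
        = ((16 : ℝ) ^ k)⁻¹ * ∑ j₁ : J, ∑ z ∈ iv k m, ∑ j₂ : J, ∑ z' ∈ iv k m,
          (∑ j' : J', ∑ y ∈ iv k n, F x j' j₁ y z * F x j' j₂ y z') ^ 2 := by
      intro x hx
      unfold mP
      rw [if_pos (show sl U x (k + 1) (n / 2) (m / 2) by unfold sl; rwa [ix_half hx])]
      exact trace_gX_sq k (F x) n m
    rw [sum_congr rfl e, ← mul_sum, inv_mul_le_iff₀ (by positivity)]
    refine (h k h1 h2 i n m hU).trans (le_of_eq ?_)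
    rw [← mul_assoc, ← mul_pow]; norm_num
  · have e : ∀ x ∈ iv k i, (mP (ofFun (F x)) (sl U x) k m n
          * mP (ofFun (F x)) (sl U x) k m n).trace = 0 := by
      intro x hx
      unfold mP
      rw [if_neg (show ¬ sl U x (k + 1) (n / 2) (m / 2) by unfold sl; rwa [ix_half hx])]
      rw [Matrix.mul_zero]
      exact Matrix.trace_zero _ _
    rw [sum_congr rfl e, sum_const_zero]
    positivity

theorem D1.flip {N l : ℕ} {F : ℤ → J' → J → ℤ → ℤ → ℝ} {U : MC} {α : ℝ} (h : D1 N l F U α) :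
    D1 N l (flF F) (fl4 U) α := by
  intro k h1 h2 i n m hU
  refine le_trans (le_of_eq ?_) (h k h1 h2 i m n hU)
  refine sum_congr rfl fun x _ => ?_
  rw [sum_comm]
  exact sum_congr rfl fun j' _ => sum_congr rfl fun j _ => sum_comm

theorem trace_flip_sq (k : ℕ) (F : J' → J → ℤ → ℤ → ℝ) (n m : ℤ) :
    (gX k k (fl F) m n * gX k k (fl F) m n).trace = (gX k k F n m * gX k k F n m).trace := by
  rw [← mat_row, ← mat_col, Matrix.mul_assoc, trace_mul_comm]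
  simp only [Matrix.mul_assoc]

theorem D2.flip {N l : ℕ} {F : ℤ → J' → J → ℤ → ℤ → ℝ} {U : MC} {v : ℝ} (h : D2 N l F U v) :
    D2 N l (flF F) (fl4 U) v := by
  intro k h1 h2 i n m hU
  refine le_trans (le_of_eq ?_) (h k h1 h2 i m n hU)
  refine sum_congr rfl fun x _ => ?_
  have e := trace_flip_sq k (F x) m n
  rw [trace_gX_sq, trace_gX_sq] at e
  exact mul_left_cancel₀ (inv_ne_zero (by positivity)) e

theorem ob_smul {P Q : Type} [Fintype P] [DecidableEq P] [Fintype Q] [DecidableEq Q] {K : ℝ}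
    {M : Matrix P Q ℝ} (hK : 0 < K) (h : OB (K ^ 2) M) : OB 1 (K⁻¹ • M) := by
  have e : (K⁻¹ * K⁻¹) * K ^ 2 = 1 := by field_simp
  constructor
  · have h1 := h.1.smul (show (0 : ℝ) ≤ K⁻¹ * K⁻¹ by positivity)
    rw [smul_sub, smul_smul, e] at h1
    rwa [transpose_smul, Matrix.smul_mul, Matrix.mul_smul, smul_smul]
  · have h1 := h.2.smul (show (0 : ℝ) ≤ K⁻¹ * K⁻¹ by positivity)
    rw [smul_sub, smul_smul, e] at h1
    rwa [transpose_smul, Matrix.smul_mul, Matrix.mul_smul, smul_smul]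

theorem mat_smul (κ : ℝ) (k : ℕ) (F : J' → J → ℤ → ℤ → ℝ) (n m : ℤ) :
    mat k (fun j' j y z => κ * F j' j y z) n m = κ • mat k F n m := by
  ext i j
  simp only [mat, Matrix.smul_apply, smul_eq_mul, smp]
  ring

open scoped Classical in
/-- **Masked labelled triangle (4, 2, 4) for face functions**, heights one. -/
theorem triF1 {N l : ℕ} (hl : l ≤ N) {X R0 R1 R2 : ℤ} {cc : ℕ → ℤ → ℤ} {UA UB UC : MC}
    (hA : Cl4 N UA) (hB : Cl4 N UB) (hC : Cl4 N UC)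
    (hc : ∀ x, H588.Pl fun k => cc k (ix k x))
    (A : ℤ → J0 → J1 → ℤ → ℤ → ℝ) (B : ℤ → J1 → J2 → ℤ → ℤ → ℝ) (C : ℤ → J0 → J2 → ℤ → ℤ → ℝ)
    (oA : ∀ x ∈ iv N X, ∀ k ∈ Icc (l + 1) N, ∀ p ∈ bx N R0 R1 R2 k (cc k (ix k x)),
      mk UA UB UC x k p → OB 1 (mat k (A x) p.1 p.2.1))
    (oB : ∀ x ∈ iv N X, ∀ k ∈ Icc (l + 1) N, ∀ p ∈ bx N R0 R1 R2 k (cc k (ix k x)),
      mk UA UB UC x k p → OB 1 (mat k (B x) p.2.1 p.2.2))
    (oC : ∀ x ∈ iv N X, ∀ k ∈ Icc (l + 1) N, ∀ p ∈ bx N R0 R1 R2 k (cc k (ix k x)),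
      mk UA UB UC x k p → OB 1 (mat k (C x) p.1 p.2.2))
    {u w s α γ : ℝ} (hu : 0 < u) (hw : 0 < w) (hs : 0 < s) (hα : 0 ≤ α) (hγ : 0 ≤ γ)
    (a1 : D1 N l A UA α) (a2 : D2 N l A UA (u ^ 2))
    (b1 : D1 N l B UB (s ^ 2))
    (c1 : D1 N l C UC γ) (c2 : D2 N l C UC (w ^ 2))
    (L : ℕ) (q1 : u ≤ 2 ^ L * s) (q2 : w ≤ 2 ^ L * s) (q3 : s ≤ 2 ^ L * u) (q4 : s ≤ 2 ^ L * w)
    (q5 : α ≤ 2 ^ L * (u * s)) (q6 : γ ≤ 2 ^ L * (w * s)) :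
    ∑ x ∈ iv N X, ∑ k ∈ Icc (l + 1) N, ((2 : ℝ) ^ k)⁻¹
        * ∑ p ∈ bx N R0 R1 R2 k (cc k (ix k x)),
      (if mk UA UB UC x k p then |tri3 k p (A x) (B x) (C x)| else 0)
      ≤ 270179280 * (L + 1) * Real.sqrt (s ^ 2 * u * w) * 8 ^ N := by
  have mem : ∀ ω ∈ bM N l X R0 R1 R2 cc UA UB UC, ω.1 ∈ iv N X ∧ ω.2.1 ∈ Icc (l + 1) N ∧
      ω.2.2 ∈ bx N R0 R1 R2 ω.2.1 (cc ω.2.1 (ix ω.2.1 ω.1)) ∧ mk UA UB UC ω.1 ω.2.1 ω.2.2 := by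
    rintro ⟨x, k, p⟩ hω
    unfold bM at hω
    simp only [mem_sigma, mem_filter] at hω
    exact ⟨hω.1, hω.2.1, hω.2.2.1, hω.2.2.2⟩
  have z : ∀ {P : Type} [Fintype P] [DecidableEq P] {M M' : Matrix P P ℝ}, M = M' →
      (M - M').PosSemidef := by
    intro P _ _ M M' h
    rw [h, sub_self]
    exact Matrix.PosSemidef.zero
  have h : DomM (bM N l X R0 R1 R2 cc UA UB UC) (fun x => ofFun (flF A x)) (fun x => ofFun (A x))
      (fun x => ofFun (flF B x)) (fun x => ofFun (B x)) (fun x => ofFun (flF C x))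
      (fun x => ofFun (C x))
      (fun ω => mat ω.2.1 (A ω.1) ω.2.2.1 ω.2.2.2.1)
      (fun ω => mat ω.2.1 (B ω.1) ω.2.2.2.1 ω.2.2.2.2)
      (fun ω => mat ω.2.1 (C ω.1) ω.2.2.1 ω.2.2.2.2) := by
    refine ⟨?_, ?_, ?_, ?_, ?_, ?_, ?_, ?_, ?_⟩
    · intro ω _; exact z (mat_row _ _ _ _).symm
    · intro ω _; exact z (mat_col _ _ _ _).symm
    · intro ω hω
      obtain ⟨m1, m2, m3, m4⟩ := mem ω hω
      exact oA _ m1 _ m2 _ m3 m4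
    · intro ω _; exact z (mat_row _ _ _ _).symm
    · intro ω _; exact z (mat_col _ _ _ _).symm
    · intro ω hω
      obtain ⟨m1, m2, m3, m4⟩ := mem ω hω
      exact oB _ m1 _ m2 _ m3 m4
    · intro ω _; exact z (mat_row _ _ _ _).symm
    · intro ω _; exact z (mat_col _ _ _ _).symm
    · intro ω hω
      obtain ⟨m1, m2, m3, m4⟩ := mem ω hω
      exact oC _ m1 _ m2 _ m3 m4
  have key := tri424M hl hA hB hC hc h hu hw hs hα hγ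
    (H1_of_D1 hα a1.flip) (H2_of_D2 (sq_nonneg _) a2.flip) (H1_of_D1 hα a1)
    (H2_of_D2 (sq_nonneg _) a2) (H1_of_D1 (sq_nonneg _) b1.flip) (H1_of_D1 (sq_nonneg _) b1)
    (H1_of_D1 hγ c1.flip) (H2_of_D2 (sq_nonneg _) c2.flip) (H1_of_D1 hγ c1)
    (H2_of_D2 (sq_nonneg _) c2) L q1 q2 q3 q4 q5 q6
  refine le_trans (le_of_eq ?_) key
  refine sum_congr rfl fun x _ => sum_congr rfl fun k hk => ?_
  obtain ⟨k, rfl⟩ : ∃ k', k = k' + 1 := ⟨k - 1, by have := (mem_Icc.mp hk).1; omega⟩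
  rw [mul_sum, mul_sum]
  refine sum_congr rfl fun p _ => ?_
  split_ifs with hm
  · rw [TF_mat, abs_mul, abs_of_nonneg (show (0 : ℝ) ≤ ((8 : ℝ) ^ (k + 1))⁻¹ by positivity),
      ← mul_assoc]
    congr 1
    have e8 : (8 : ℝ) ^ (k + 1) = 4 ^ (k + 1) * 2 ^ (k + 1) := by rw [← mul_pow]; norm_num
    rw [e8]
    field_simp
  · ring

/-- scaling of a labelled family -/
def sc (κ : ℝ) (F : ℤ → J' → J → ℤ → ℤ → ℝ) : ℤ → J' → J → ℤ → ℤ → ℝ :=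
  fun x j' j y z => κ * F x j' j y z

theorem D1.sc {N l : ℕ} {F : ℤ → J' → J → ℤ → ℤ → ℝ} {U : MC} {α : ℝ} (h : D1 N l F U α)
    (κ : ℝ) : D1 N l (sc κ F) U (κ ^ 2 * α) := by
  intro k h1 h2 i n m hU
  have := mul_le_mul_of_nonneg_left (h k h1 h2 i n m hU) (sq_nonneg κ)
  refine le_trans (le_of_eq ?_) (this.trans (le_of_eq (by ring)))
  simp only [H198.sc, mul_pow, ← mul_sum]

theorem D2.sc {N l : ℕ} {F : ℤ → J' → J → ℤ → ℤ → ℝ} {U : MC} {v : ℝ} (h : D2 N l F U v)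
    (κ : ℝ) : D2 N l (sc κ F) U (κ ^ 4 * v) := by
  intro k h1 h2 i n m hU
  have := mul_le_mul_of_nonneg_left (h k h1 h2 i n m hU) (show (0 : ℝ) ≤ κ ^ 4 by positivity)
  refine le_trans (le_of_eq ?_) (this.trans (le_of_eq (by ring)))
  have e : ∀ a b : ℝ, κ * a * (κ * b) = κ ^ 2 * (a * b) := fun a b => by ring
  simp only [H198.sc, e, ← mul_sum, mul_pow, ← pow_mul]

theorem tri3_sc {J0 J1 J2 : Type} [Fintype J0] [Fintype J1] [Fintype J2] (k : ℕ)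
    (p : ℤ × ℤ × ℤ) (a b c : ℝ)
    (A : J0 → J1 → ℤ → ℤ → ℝ) (B : J1 → J2 → ℤ → ℤ → ℝ) (C : J0 → J2 → ℤ → ℤ → ℝ) :
    tri3 k p (fun j' j y z => a * A j' j y z) (fun j' j y z => b * B j' j y z)
      (fun j' j y z => c * C j' j y z) = a * b * c * tri3 k p A B C := by
  unfold tri3
  simp only [mul_sum]
  refine sum_congr rfl fun x0 _ => sum_congr rfl fun x1 _ => sum_congr rfl fun x2 _ =>
    sum_congr rfl fun j0 _ => sum_congr rfl fun j1 _ => sum_congr rfl fun j2 _ => ?_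
  ring

open scoped Classical in
/-- **Masked labelled triangle (4, 2, 4) for face functions.**  `Ma, Mb, Mc` bound the operator
norms of the three functions on every alive box, `α, γ, s²` are `S₂` densities, `u², w²` are `S₄`
densities.  The heights enter only through the logarithmic length `L`. -/
theorem triF {N l : ℕ} (hl : l ≤ N) {X R0 R1 R2 : ℤ} {cc : ℕ → ℤ → ℤ} {UA UB UC : MC}
    (hA : Cl4 N UA) (hB : Cl4 N UB) (hC : Cl4 N UC)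
    (hc : ∀ x, H588.Pl fun k => cc k (ix k x))
    (A : ℤ → J0 → J1 → ℤ → ℤ → ℝ) (B : ℤ → J1 → J2 → ℤ → ℤ → ℝ) (C : ℤ → J0 → J2 → ℤ → ℤ → ℝ)
    {Ma Mb Mc : ℝ} (ha : 0 < Ma) (hb : 0 < Mb) (hcc : 0 < Mc)
    (oA : ∀ x ∈ iv N X, ∀ k ∈ Icc (l + 1) N, ∀ p ∈ bx N R0 R1 R2 k (cc k (ix k x)),
      mk UA UB UC x k p → OB (Ma ^ 2) (mat k (A x) p.1 p.2.1))
    (oB : ∀ x ∈ iv N X, ∀ k ∈ Icc (l + 1) N, ∀ p ∈ bx N R0 R1 R2 k (cc k (ix k x)),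
      mk UA UB UC x k p → OB (Mb ^ 2) (mat k (B x) p.2.1 p.2.2))
    (oC : ∀ x ∈ iv N X, ∀ k ∈ Icc (l + 1) N, ∀ p ∈ bx N R0 R1 R2 k (cc k (ix k x)),
      mk UA UB UC x k p → OB (Mc ^ 2) (mat k (C x) p.1 p.2.2))
    {u w s α γ : ℝ} (hu : 0 < u) (hw : 0 < w) (hs : 0 < s) (hα : 0 ≤ α) (hγ : 0 ≤ γ)
    (a1 : D1 N l A UA α) (a2 : D2 N l A UA (u ^ 2))
    (b1 : D1 N l B UB (s ^ 2))
    (c1 : D1 N l C UC γ) (c2 : D2 N l C UC (w ^ 2))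
    (L : ℕ) (q1 : u * Mb ≤ 2 ^ L * (s * Ma ^ 2)) (q2 : w * Mb ≤ 2 ^ L * (s * Mc ^ 2))
    (q3 : s * Ma ^ 2 ≤ 2 ^ L * (u * Mb)) (q4 : s * Mc ^ 2 ≤ 2 ^ L * (w * Mb))
    (q5 : α * Mb ≤ 2 ^ L * (u * s)) (q6 : γ * Mb ≤ 2 ^ L * (w * s)) :
    ∑ x ∈ iv N X, ∑ k ∈ Icc (l + 1) N, ((2 : ℝ) ^ k)⁻¹
        * ∑ p ∈ bx N R0 R1 R2 k (cc k (ix k x)),
      (if mk UA UB UC x k p then |tri3 k p (A x) (B x) (C x)| else 0)
      ≤ 270179280 * (L + 1) * Real.sqrt (s ^ 2 * u * w) * 8 ^ N := by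
  have key := triF1 hl hA hB hC hc (sc Ma⁻¹ A) (sc Mb⁻¹ B) (sc Mc⁻¹ C) (X := X) (R0 := R0)
    (R1 := R1) (R2 := R2)
    (fun x hx k hk p hp hm => by
      have := ob_smul ha (oA x hx k hk p hp hm)
      rwa [← mat_smul] at this)
    (fun x hx k hk p hp hm => by
      have := ob_smul hb (oB x hx k hk p hp hm)
      rwa [← mat_smul] at this)
    (fun x hx k hk p hp hm => by
      have := ob_smul hcc (oC x hx k hk p hp hm)
      rwa [← mat_smul] at this)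
    (u := Ma⁻¹ ^ 2 * u) (w := Mc⁻¹ ^ 2 * w) (s := Mb⁻¹ * s) (α := Ma⁻¹ ^ 2 * α)
    (γ := Mc⁻¹ ^ 2 * γ) (by positivity) (by positivity) (by positivity) (by positivity)
    (by positivity) (a1.sc _) (by rw [mul_pow, ← pow_mul]; exact a2.sc _)
    (by rw [mul_pow]; exact b1.sc _) (c1.sc _) (by rw [mul_pow, ← pow_mul]; exact c2.sc _) L
    (by
      rw [show Ma⁻¹ ^ 2 * u = (Ma⁻¹ ^ 2 * Mb⁻¹) * (u * Mb) by field_simp,
        show 2 ^ L * (Mb⁻¹ * s) = (Ma⁻¹ ^ 2 * Mb⁻¹) * (2 ^ L * (s * Ma ^ 2)) by field_simp]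
      exact mul_le_mul_of_nonneg_left q1 (by positivity))
    (by
      rw [show Mc⁻¹ ^ 2 * w = (Mc⁻¹ ^ 2 * Mb⁻¹) * (w * Mb) by field_simp,
        show 2 ^ L * (Mb⁻¹ * s) = (Mc⁻¹ ^ 2 * Mb⁻¹) * (2 ^ L * (s * Mc ^ 2)) by field_simp]
      exact mul_le_mul_of_nonneg_left q2 (by positivity))
    (by
      rw [show Mb⁻¹ * s = (Ma⁻¹ ^ 2 * Mb⁻¹) * (s * Ma ^ 2) by field_simp,
        show 2 ^ L * (Ma⁻¹ ^ 2 * u) = (Ma⁻¹ ^ 2 * Mb⁻¹) * (2 ^ L * (u * Mb)) by field_simp]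
      exact mul_le_mul_of_nonneg_left q3 (by positivity))
    (by
      rw [show Mb⁻¹ * s = (Mc⁻¹ ^ 2 * Mb⁻¹) * (s * Mc ^ 2) by field_simp,
        show 2 ^ L * (Mc⁻¹ ^ 2 * w) = (Mc⁻¹ ^ 2 * Mb⁻¹) * (2 ^ L * (w * Mb)) by field_simp]
      exact mul_le_mul_of_nonneg_left q4 (by positivity))
    (by
      rw [show Ma⁻¹ ^ 2 * α = (Ma⁻¹ ^ 2 * Mb⁻¹) * (α * Mb) by field_simp,
        show 2 ^ L * (Ma⁻¹ ^ 2 * u * (Mb⁻¹ * s)) = (Ma⁻¹ ^ 2 * Mb⁻¹) * (2 ^ L * (u * s)) by ring]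
      exact mul_le_mul_of_nonneg_left q5 (by positivity))
    (by
      rw [show Mc⁻¹ ^ 2 * γ = (Mc⁻¹ ^ 2 * Mb⁻¹) * (γ * Mb) by field_simp,
        show 2 ^ L * (Mc⁻¹ ^ 2 * w * (Mb⁻¹ * s)) = (Mc⁻¹ ^ 2 * Mb⁻¹) * (2 ^ L * (w * s)) by ring]
      exact mul_le_mul_of_nonneg_left q6 (by positivity))
  have e1 : Real.sqrt ((Mb⁻¹ * s) ^ 2 * (Ma⁻¹ ^ 2 * u) * (Mc⁻¹ ^ 2 * w))
      = (Ma⁻¹ * Mb⁻¹ * Mc⁻¹) * Real.sqrt (s ^ 2 * u * w) := by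
    rw [show (Mb⁻¹ * s) ^ 2 * (Ma⁻¹ ^ 2 * u) * (Mc⁻¹ ^ 2 * w)
      = (Ma⁻¹ * Mb⁻¹ * Mc⁻¹) ^ 2 * (s ^ 2 * u * w) by ring,
      Real.sqrt_mul (sq_nonneg _), Real.sqrt_sq (by positivity)]
  have e2 : ∑ x ∈ iv N X, ∑ k ∈ Icc (l + 1) N, ((2 : ℝ) ^ k)⁻¹
        * ∑ p ∈ bx N R0 R1 R2 k (cc k (ix k x)),
      (if mk UA UB UC x k p then |tri3 k p (sc Ma⁻¹ A x) (sc Mb⁻¹ B x) (sc Mc⁻¹ C x)| else 0)
      = (Ma⁻¹ * Mb⁻¹ * Mc⁻¹) * ∑ x ∈ iv N X, ∑ k ∈ Icc (l + 1) N, ((2 : ℝ) ^ k)⁻¹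
        * ∑ p ∈ bx N R0 R1 R2 k (cc k (ix k x)),
      (if mk UA UB UC x k p then |tri3 k p (A x) (B x) (C x)| else 0) := by
    simp only [mul_sum]
    refine sum_congr rfl fun x _ => sum_congr rfl fun k _ => sum_congr rfl fun p _ => ?_
    split_ifs with hm
    · have : tri3 k p (sc Ma⁻¹ A x) (sc Mb⁻¹ B x) (sc Mc⁻¹ C x)
          = Ma⁻¹ * Mb⁻¹ * Mc⁻¹ * tri3 k p (A x) (B x) (C x) := tri3_sc k p _ _ _ _ _ _
      rw [this, abs_mul, abs_of_pos (show (0 : ℝ) < Ma⁻¹ * Mb⁻¹ * Mc⁻¹ by positivity)]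
      ring
    · ring
  rw [e1, e2] at key
  have h0 : (0 : ℝ) < Ma⁻¹ * Mb⁻¹ * Mc⁻¹ := by positivity
  refine le_of_mul_le_mul_left (key.trans (le_of_eq ?_)) h0
  ring

end

end Vale.Agent.P141.PL.H198
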