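import Vale.Agent.P141.PL.H198.Face

/-!
# P141: local forms with a factorised function on face 0 as labelled triangles

`F0 (x1,x2,x3) = sum_j c(x1,x2) a_j(x2,x3) b_j(x1,x3)` (`c` may be a gauge): for fixed `x0` the local
form is the labelled triangle with vertices `x2`, `(x3, j)`, `x1`.
-/

namespace Vale.Agent.P141.PL.H198

open Finset Matrix Vale.Agent.P075 Vale.Agent.P141.PL Vale.Agent.P141.PL.H48

set_option linter.unusedSectionVars false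

noncomputable section

variable {J : Type} [Fintype J] [DecidableEq J]

/-- the edge function `(x2, (x3, j))` -/
def eA (F1 : Pt → ℝ) (q : J → ℤ → ℤ → ℝ) : ℤ → Unit → J → ℤ → ℤ → ℝ :=
  fun x0 _ j x2 x3 => F1 (x0, x2, x3) * q j x2 x3

/-- the edge function `((x3, j), x1)` -/
def eB (F2 : Pt → ℝ) (p : J → ℤ → ℤ → ℝ) : ℤ → J → Unit → ℤ → ℤ → ℝ :=
  fun x0 j _ x3 x1 => F2 (x0, x1, x3) * p j x1 x3

/-- the edge function `(x2, x1)` -/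
def eC (F3 : Pt → ℝ) (u : ℤ → ℤ → ℝ) : ℤ → Unit → Unit → ℤ → ℤ → ℝ :=
  fun x0 _ _ x2 x1 => F3 (x0, x1, x2) * u x1 x2

theorem loc_eq_tri3 (k : ℕ) (m : Bx) {F0 F1 F2 F3 : Pt → ℝ} (u : ℤ → ℤ → ℝ)
    (p q : J → ℤ → ℤ → ℝ)
    (h : ∀ x1 ∈ iv k m.2.1, ∀ x2 ∈ iv k m.2.2.1, ∀ x3 ∈ iv k m.2.2.2,
      F0 (x1, x2, x3) = u x1 x2 * ∑ j, p j x1 x3 * q j x2 x3) :
    loc k m F0 F1 F2 F3 = ∑ x0 ∈ iv k m.1, Vale.Agent.P141.PL.hs k x0 *
      tri3 k (m.2.2.1, m.2.2.2, m.2.1) (eA F1 q x0) (eB F2 p x0) (eC F3 u x0) := by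
  unfold loc tri3 prd
  refine sum_congr rfl fun x0 _ => ?_
  simp only [mul_sum]
  rw [sum_comm]
  refine sum_congr rfl fun x2 h2 => ?_
  rw [sum_comm]
  refine sum_congr rfl fun x3 h3 => sum_congr rfl fun x1 h1 => ?_
  have e : ∀ g : Unit → ℝ, ∑ i, g i = g () := fun g => by simp
  simp only [e]
  rw [h x1 h1 x2 h2 x3 h3]
  simp only [mul_sum, sum_mul]
  refine sum_congr rfl fun j _ => ?_
  unfold eA eB eC
  ring

theorem loc_congr {k : ℕ} {m : Bx} {F0 F1 F2 F3 G0 G1 G2 G3 : Pt → ℝ}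
    (h0 : ∀ c ∈ cb k (rf0 m), F0 c = G0 c) (h1 : ∀ c ∈ cb k (rf1 m), F1 c = G1 c)
    (h2 : ∀ c ∈ cb k (rf2 m), F2 c = G2 c) (h3 : ∀ c ∈ cb k (rf3 m), F3 c = G3 c) :
    loc k m F0 F1 F2 F3 = loc k m G0 G1 G2 G3 := by
  unfold loc prd
  refine sum_congr rfl fun x0 m0 => sum_congr rfl fun x1 m1 => sum_congr rfl fun x2 m2 =>
    sum_congr rfl fun x3 m3 => ?_
  rw [h0 (x1, x2, x3), h1 (x0, x2, x3), h2 (x0, x1, x3), h3 (x0, x1, x2)]
  · exact mem_product.mpr ⟨m0, mem_product.mpr ⟨m1, m2⟩⟩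
  · exact mem_product.mpr ⟨m0, mem_product.mpr ⟨m1, m3⟩⟩
  · exact mem_product.mpr ⟨m0, mem_product.mpr ⟨m2, m3⟩⟩
  · exact mem_product.mpr ⟨m1, mem_product.mpr ⟨m2, m3⟩⟩

theorem sum_bxs (N k : ℕ) (R : Bx) (o : ℤ) (f : Bx → ℝ) :
    ∑ m ∈ bxs N R o k, f m = ∑ m0 ∈ iv (N - k) R.1,
      ∑ p ∈ bx N R.2.2.1 R.2.2.2 R.2.1 k (o - 2 - m0), f (m0, p.2.2, p.1, p.2.1) := by
  unfold bxs bx
  rw [sum_filter, sum_product]
  refine sum_congr rfl fun m0 _ => ?_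
  rw [sum_product, sum_filter, sum_product]
  simp only [sum_product]
  rw [sum_comm]
  refine sum_congr rfl fun m2 _ => ?_
  rw [sum_comm]
  refine sum_congr rfl fun m3 _ => sum_congr rfl fun m1 _ => ?_
  have e : (m0 + m1 + m2 + m3 = o - 2) ↔ (m2 + m3 + m1 = o - 2 - m0) := by
    constructor <;> intro h <;> linarith
  simp only [e]

theorem pl_fix (o : ℤ) (h1 : -1 ≤ o) (h2 : o ≤ 1) (x : ℤ) :
    H588.Pl fun k => o - 2 - ix k x := by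
  intro k
  simp only [ix_succ]
  omega

/-- masks from families of face cubes -/
def mA (A1 : ℕ → Pt → Prop) : MC := fun k i n m => A1 k (i, n, m)
@[inherit_doc mA] def mB (A2 : ℕ → Pt → Prop) : MC := fun k i n m => A2 k (i, m, n)

/-- closed under parents below scale `N` -/
def ClP (N : ℕ) (A : ℕ → Pt → Prop) : Prop := ∀ k, k < N → ∀ c, A k c → A (k + 1) (cx 1 c)

theorem ClP.mA {N : ℕ} {A : ℕ → Pt → Prop} (h : ClP N A) : Cl4 N (mA A) := by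
  intro k hk i n m hU
  have := h k hk (i, n, m) hU
  unfold cx ix at this
  unfold H198.mA
  simpa using this

theorem ClP.mB {N : ℕ} {A : ℕ → Pt → Prop} (h : ClP N A) : Cl4 N (mB A) := by
  intro k hk i n m hU
  have := h k hk (i, m, n) hU
  unfold cx ix at this
  unfold H198.mB
  simpa using this

open scoped Classical in
/-- **Local forms as labelled triangles**, sums over boxes. -/
theorem locSum_le {N l : ℕ} (R : Bx) (o : ℤ) {A1 A2 A3 : ℕ → Pt → Prop} {P : ℕ → Bx → Prop}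
    (hP : ∀ k m, P k m → A1 k (rf1 m) ∧ A2 k (rf2 m) ∧ A3 k (rf3 m))
    (G0 G1 G2 G3 : ℕ → Bx → Pt → ℝ) (F1 F2 F3 : Pt → ℝ) (u : ℤ → ℤ → ℝ)
    (p q : J → ℤ → ℤ → ℝ)
    (h0 : ∀ k m, P k m → ∀ x1 ∈ iv k m.2.1, ∀ x2 ∈ iv k m.2.2.1, ∀ x3 ∈ iv k m.2.2.2,
      G0 k m (x1, x2, x3) = u x1 x2 * ∑ j, p j x1 x3 * q j x2 x3)
    (h1 : ∀ k m, P k m → ∀ c ∈ cb k (rf1 m), G1 k m c = F1 c)
    (h2 : ∀ k m, P k m → ∀ c ∈ cb k (rf2 m), G2 k m c = F2 c)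
    (h3 : ∀ k m, P k m → ∀ c ∈ cb k (rf3 m), G3 k m c = F3 c) :
    ∑ k ∈ Icc (l + 1) N, ((2 : ℝ) ^ k)⁻¹ * ∑ m ∈ bxs N R o k,
        (if P k m then |loc k m (G0 k m) (G1 k m) (G2 k m) (G3 k m)| else 0)
      ≤ ∑ x ∈ iv N R.1, ∑ k ∈ Icc (l + 1) N, ((2 : ℝ) ^ k)⁻¹
        * ∑ r ∈ bx N R.2.2.1 R.2.2.2 R.2.1 k (o - 2 - ix k x),
          (if mk (mA A1) (mB A2) (mB A3) x k r then
            |tri3 k r (eA F1 q x) (eB F2 p x) (eC F3 u x)| else 0) := by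
  rw [sum_comm (s := iv N R.1)]
  refine sum_le_sum fun k hk => ?_
  rw [← mul_sum]
  refine mul_le_mul_of_nonneg_left ?_ (by positivity)
  have hkN : k ≤ N := (mem_Icc.mp hk).2
  rw [sum_bxs, sum_iv_grp hkN]
  refine sum_le_sum fun m0 _ => ?_
  have e1 : ∀ x0 ∈ iv k m0, ix k x0 = m0 := fun x0 hx => mem_iv.mp hx
  have e2 : ∑ x ∈ iv k m0, ∑ r ∈ bx N R.2.2.1 R.2.2.2 R.2.1 k (o - 2 - ix k x),
          (if mk (mA A1) (mB A2) (mB A3) x k r then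
            |tri3 k r (eA F1 q x) (eB F2 p x) (eC F3 u x)| else 0)
      = ∑ r ∈ bx N R.2.2.1 R.2.2.2 R.2.1 k (o - 2 - m0), ∑ x ∈ iv k m0,
          (if mk (mA A1) (mB A2) (mB A3) x k r then
            |tri3 k r (eA F1 q x) (eB F2 p x) (eC F3 u x)| else 0) := by
    rw [sum_comm]
    exact sum_congr rfl fun x hx => by rw [e1 x hx]
  rw [e2]
  refine sum_le_sum fun r _ => ?_
  by_cases hp : P k (m0, r.2.2, r.1, r.2.1)
  · rw [if_pos hp]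
    have hA := hP k _ hp
    have e3 : ∀ x ∈ iv k m0, mk (mA A1) (mB A2) (mB A3) x k r := by
      intro x hx
      unfold H48.mk mA mB
      rw [e1 x hx]
      exact ⟨hA.1, hA.2.1, hA.2.2⟩
    set F0 : Pt → ℝ := fun c => u c.1 c.2.1 * ∑ j, p j c.1 c.2.2 * q j c.2.1 c.2.2 with hF0
    have e4 : loc k (m0, r.2.2, r.1, r.2.1) (G0 k (m0, r.2.2, r.1, r.2.1))
        (G1 k (m0, r.2.2, r.1, r.2.1)) (G2 k (m0, r.2.2, r.1, r.2.1))
        (G3 k (m0, r.2.2, r.1, r.2.1)) = loc k (m0, r.2.2, r.1, r.2.1) F0 F1 F2 F3 := by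
      refine loc_congr ?_ (h1 k _ hp) (h2 k _ hp) (h3 k _ hp)
      rintro ⟨x1, x2, x3⟩ hc
      unfold cb at hc
      rw [mem_product, mem_product] at hc
      exact h0 k _ hp x1 hc.1 x2 hc.2.1 x3 hc.2.2
    rw [e4, loc_eq_tri3 k (m0, r.2.2, r.1, r.2.1) u p q (fun x1 _ x2 _ x3 _ => rfl)]
    refine (abs_sum_le_sum_abs _ _).trans (sum_le_sum fun x hx => ?_)
    rw [if_pos (e3 x hx), abs_mul, abs_hs, one_mul]
  · rw [if_neg hp]
    refine sum_nonneg fun x _ => ?_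
    split_ifs
    · exact abs_nonneg _
    · exact le_rfl

end

end Vale.Agent.P141.PL.H198
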